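import Crest.Agent.X212.Nv5.Stm
import Crest.Agent.X212.Cyl58.Hp
import Crest.Agent.X212.Sep15.CmL
import Crest.Agent.X212.Bb31.Col
import Crest.Agent.X212.Sym24.Main
import Crest.Agent.X212.Lft9.Jc

/-!
# Row 212, NV-NK (helper6): the closed symplectic manifold with a neck
-/

set_option autoImplicit false
set_option linter.unusedSectionVars false

open Set Filter Topology Function
open scoped ContDiff Manifold
open Crest.Agent.R208.F Crest.Agent.X212.Dr59 Crest.Agent.X212.Int54 Crest.Agent.X212.Cyl58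
open Crest.Agent.X212.Bb31 (Fm Z2 EXR OE)
open Crest.Agent.X212.Sep15 (EE IR CM End Jo HP)
open Crest.Agent.X212.Sym24 (pu dT)

noncomputable section

namespace Crest.Agent.X212.Nk6

theorem pre_left {X : Type*} [TopologicalSpace X] [PreconnectedSpace X] {U V : Set X} (hU : IsOpen U)
    (hV : IsOpen V) (c : ∀ x, x ∈ U ∨ x ∈ V) (h : IsPreconnected (U ∩ V)) : IsPreconnected U := by
  have k : ∀ P Q : Set X, IsOpen P → IsOpen Q → U ⊆ P ∪ Q → (U ∩ P).Nonempty → (U ∩ Q).Nonempty →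
      U ∩ V ⊆ P → (U ∩ (P ∩ Q)).Nonempty := fun P Q hP hQ s ⟨a, ha⟩ ⟨b, hb⟩ e => by
    obtain ⟨x, -, hx, hx'⟩ := isPreconnected_univ _ _ ((hU.inter hP).union hV) (hU.inter hQ)
      (fun x _ => (c x).elim (fun k => (s k).elim (fun l => .inl (.inl ⟨k, l⟩)) fun l => .inr ⟨k, l⟩)
        fun k => .inl (.inr k)) ⟨a, trivial, .inl ha⟩ ⟨b, trivial, hb⟩
    exact ⟨x, hx'.1, hx.elim (·.2) fun k => e ⟨hx'.1, k⟩, hx'.2⟩
  intro P Q hP hQ s a b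
  by_contra n
  rcases h.subset_or_subset (hU.inter hP) (hU.inter hQ) (disjoint_left.2 fun x l r => n ⟨x, l.1, l.2, r.2⟩)
    (fun x hx => (s hx.1).imp (⟨hx.1, ·⟩) (⟨hx.1, ·⟩)) with e | e
  · exact n (k P Q hP hQ s a b fun x hx => (e hx).2)
  · exact n (inter_comm P Q ▸ k Q P hQ hP (union_comm P Q ▸ s) b a fun x hx => (e hx).2)

theorem exists_gap {X : Type*} [TopologicalSpace X] {f : X → ℝ} (hf : Continuous f) {K : Set X}
    (hK : IsCompact K) (h : ∀ x ∈ K, 0 < f x) : ∃ T > 0, ∀ x ∈ K, T ≤ f x := by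
  rcases K.eq_empty_or_nonempty with rfl | n
  · exact ⟨1, one_pos, by simp⟩
  · obtain ⟨x, hx, e⟩ := hK.exists_isMinOn n hf.continuousOn
    exact ⟨_, h x hx, e⟩

variable {Y : CM 3} {C₁ C₂ : End Y} {X : CM 4} (J : Jo C₁ C₂ X)

/-- closed two-forms extend over the join -/
theorem exists_ext (h₁ : EXR C₁) (h₂ : EXR C₂) {b : Fm 3 Y} (hb : Z2 b) : ∃ a : Fm 4 X, Z2 a ∧
    ∀ p : Y × ℝ, |p.2| < 1 → pm (IR 3) (𝓡 4) (J.i₁ ∘ C₁.j) a p = pu b p := by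
  obtain ⟨u₁, a1, a2⟩ := h₁ b hb
  obtain ⟨u₂, b1, b2⟩ := h₂ b hb
  obtain ⟨μ₁, a3, -, a4⟩ := Bb31.exists_col (-1) a1 a2
  obtain ⟨μ₂, b3, -, b4⟩ := Bb31.exists_col (-1) b1 b2
  have G := Sym24.jg J
  obtain ⟨a, h1, h2⟩ := G.patch (ε := 1) (a₁ := u₁ + dM (𝓡 4) μ₁) (a₂ := u₂ + dM (𝓡 4) μ₂) fun p hp => by
    rw [a4 p (abs_lt.1 hp).1, pm_congr_right (b4 (Sym24.fl p) (neg_lt_neg (abs_lt.1 hp).2)),
      Sym24.pm_fl_pu]
  have s : ∀ (C : End Y), ∀ x ∉ C.j '' (univ ×ˢ Ioi 0), x ∈ (C.j '' (univ ×ˢ Ici 1))ᶜ := fun C x h k =>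
    h (image_mono (prod_mono_right (Ici_subset_Ioi.2 one_pos)) k)
  refine ⟨a, cl_of_loc fun x _ => ?_, fun p hp => ?_⟩
  · rcases G.cov0 x with ⟨p, hp, rfl⟩ | ⟨p, hp, rfl⟩
    · exact ⟨_, mem_image_of_mem _ (s _ p hp), ((OE.of_oe J.o₁).mono (C₁.isClosed_Ici 1).isOpen_compl
        (subset_univ _)).cl h1 ((a1.add a3.z2).mono (subset_univ _))⟩
    · exact ⟨_, mem_image_of_mem _ (s _ p hp), ((OE.of_oe J.o₂).mono (C₂.isClosed_Ici 1).isOpen_compl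
        (subset_univ _)).cl h2 ((b1.add b3.z2).mono (subset_univ _))⟩
  · rw [← Orx52.pm_ld_comp J.o₁.loc C₁.oe.loc, pm_congr_right (h1 _ fun k =>
      (abs_lt.1 hp).2.not_ge (C₁.oe.inj.mem_set_image.1 k).2), a4 p (abs_lt.1 hp).1]

/-- the neck of the join -/
def sep (L : EE 3 ≃L[ℝ] EE 3) : Sep X.pc (Glue52.Pc.of (𝓡 3) Y L) where
  n := J.i₁ ∘ C₁.j
  oe := J.o₁.comp C₁.oe
  L := J.i₁ '' interior (C₁.K 0)
  R := J.i₂ '' interior (C₂.K 0)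
  oL := J.o₁.isOpen_image isOpen_interior
  oR := J.o₂.isOpen_image isOpen_interior
  dj := disjoint_left.2 <| by
    rw [interior_K, interior_K]
    rintro _ ⟨p, hp, rfl⟩ ⟨q, hq, e⟩
    obtain ⟨y, t, rfl, rfl⟩ := (J.eq p q).1 e.symm
    exact (le_total 0 t).elim (fun h => hp ⟨(y, t), ⟨trivial, h⟩, rfl⟩)
      fun h => hq ⟨(y, -t), ⟨trivial, neg_nonneg.2 h⟩, rfl⟩
  cov x hx := by
    rw [interior_K, interior_K]
    rcases J.cov x with ⟨p, rfl⟩ | ⟨q, rfl⟩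
    · refine .inl ⟨p, ?_, rfl⟩
      rintro ⟨u, -, rfl⟩
      exact hx ⟨u, rfl⟩
    · refine .inr ⟨q, ?_, rfl⟩
      rintro ⟨u, -, rfl⟩
      exact hx ⟨(u.1, -u.2), (J.eq _ _).2 ⟨u.1, -u.2, rfl, by simp⟩⟩
  nL p h := ⟨_, interior_K C₁ 0 ▸ fun k => (C₁.oe.inj.mem_set_image.1 k).2.not_gt h, rfl⟩
  nR p h := ⟨C₂.j (p.1, -p.2), interior_K C₂ 0 ▸ fun k =>
    (C₂.oe.inj.mem_set_image.1 k).2.not_gt (neg_neg_of_pos h), ((J.eq _ _).2 ⟨_, _, rfl, rfl⟩).symm⟩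

theorem τ_L [Nonempty Y] (L : EE 3 ≃L[ℝ] EE 3) {x : X} (h : x ∈ (sep J L).L) : 0 < -(sep J L).τ 1 x := by
  by_cases k : x ∈ range (sep J L).n
  · obtain ⟨p, rfl⟩ := k
    obtain ⟨z, hz, e⟩ := h
    rw [J.o₁.inj e, interior_K] at hz
    rw [Sep.τ_n, neg_pos]
    exact max_lt neg_one_lt_zero (min_lt_of_right_lt (not_le.1 fun k => hz ⟨p, ⟨trivial, k⟩, rfl⟩))
  · rw [Sep.τ_L _ _ k h, neg_neg]; exact one_pos

theorem τ_R [Nonempty Y] (L : EE 3 ≃L[ℝ] EE 3) {x : X} (h : x ∈ (sep J L).R) : 0 < (sep J L).τ 1 x := by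
  by_cases k : x ∈ range (sep J L).n
  · obtain ⟨p, rfl⟩ := k
    obtain ⟨z, hz, e⟩ := h
    obtain ⟨y, t, e', rfl⟩ := (J.eq _ _).1 e.symm
    rw [interior_K] at hz
    rw [Sep.τ_n, C₁.oe.inj e']
    exact lt_max_of_lt_right (lt_min one_pos (not_le.1 fun k => hz ⟨(y, -t), ⟨trivial, neg_nonneg.2 k⟩, rfl⟩))
  · rw [Sep.τ_R _ _ k h]; exact one_pos

theorem tp_sw (c : Ext (EE 3)) :
    tp (EE 3 × ℝ) (dT (EE 3) * Sym24.up (-c)) = tp (EE 3 × ℝ) (xp c (io LinearMap.id : Ext ℝ)) := by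
  have e : dT (EE 3) * Sym24.up (-c) = xp (inv (-c)) (io LinearMap.id : Ext ℝ) := by
    rw [dT, io_mul, Sym24.up, ← pb_inv, xp, pb_io]; rfl
  rw [e, tp_xp, tp_xp, tp_inv]
  simp
  norm_num

theorem nk : Nv5.NkStmt := by
  intro Y _ o ho Φ h
  obtain ⟨C₁, C₂, X, J, O, β, u, q₁, q₂, hO, hc, -, -, hβ, -, hb⟩ := h (-o) ho.neg
  have := q₁.2.1
  have := q₂.2.1
  have := J.conn
  have := (⟨C₁.j (Classical.arbitrary _, 0)⟩ : Nonempty C₁.X)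
  have := (⟨C₂.j (Classical.arbitrary _, 0)⟩ : Nonempty C₂.X)
  let S : Sep X.pc (Nv5.o3 Y ho).Y.pc := sep J _
  have ex := fun b => exists_ext J q₁.1.exr q₂.1.exr (b := b)
  obtain ⟨ζ, z1, z2⟩ := ex β hβ
  obtain ⟨v, la, -, -, v1, -, v2, -, v3, -⟩ := hb Unit (fun _ => ζ) (fun _ => z1) fun _ =>
    ex_of_zero fun y _ => by
      rw [Pi.sub_apply, Sym24.sl, z2 _ (by simp), pu, Sym24.dn_up, sub_self]
  obtain ⟨vL, l1, l2⟩ := (HPo.psh q₁.2.2 J.o₁.pd (subset_univ _)).exists_pos hO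
  obtain ⟨vR, r1, r2⟩ := (HPo.psh q₂.2.2 J.o₂.pd (subset_univ _)).exists_pos hO
  obtain ⟨T₁, t1, l3⟩ := exists_gap (S.continuous_τ one_pos).neg l1.hc fun x hx => τ_L J _ (l1.sub hx)
  obtain ⟨T₂, t2, r3⟩ := exists_gap (S.continuous_τ one_pos) r1.hc fun x hx => τ_R J _ (r1.sub hx)
  obtain ⟨T, t0, t1, t2, t3⟩ : ∃ T > 0, T ≤ 1 ∧ T ≤ T₁ ∧ T ≤ T₂ := ⟨min 1 (min T₁ T₂), by positivity,
    min_le_left _ _, (min_le_right _ _).trans (min_le_left _ _), (min_le_right _ _).trans (min_le_right _ _)⟩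
  let W : Bor5.T.W4 := @Bor5.T.W4.mk ((S.tp one_pos).shift (-3)) (inferInstanceAs (MeasurableSpace (EE 4)))
    (inferInstanceAs (BorelSpace (EE 4))) (inferInstanceAs (MeasurableSpace X)) (inferInstanceAs (BorelSpace X))
    ‹ConnectedSpace X› O hO
  have s : Ioo (-T - 3) (T - 3) ⊆ {t | t - -3 ∈ Ioo (-1 : ℝ) 1} := fun t ht =>
    ⟨by linarith [ht.1], by linarith [ht.2]⟩
  let k : TIso (Nv5.o3 Y ho).cyl W.X (Ioo (-T - 3) (T - 3)) :=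
    ((S.k one_pos).shiftC isOpen_Ioo (-3)).restr isOpen_Ioo s
  have p0 : Orx52.TPos (S.k one_pos) (Orx52.pr o Orx52.oR) O := fun p _ => by
    have : 0 < _ * tp _ (dT (EE 3) * Sym24.up (-o p.1)) := hc p trivial
    rw [tp_sw] at this
    rw [oR_eq_dt]
    exact this
  refine ⟨⟨W, X.cp, -T - 3, T - 3, by linarith, by linarith, k,
    (Lft9.tpos_shiftC isOpen_Ioo ho p0 _).restr _ _, ζ + v - dM (𝓡 4) (la ()), (z1.add v1).sub (v2 ()).z2,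
    fun x _ => mul_comm (tp (EE 4) (O x)) _ ▸ Orx52.pos_rat.1 (v3 () () x trivial), vL, vR,
    ⟨l1.cl, l1.hc, fun x hx => ?_⟩, ⟨r1.cl, r1.hc, fun x hx => ?_⟩, l2, r2, ?_, fun b hb => ?_⟩⟩
  · exact show S.τ 1 x + -3 ≤ -T - 3 by linarith [show T₁ ≤ -S.τ 1 x from l3 x hx]
  · exact show T - 3 ≤ S.τ 1 x + -3 by linarith [r3 x hx]
  · have := W.con
    refine pre_left (isOpen_Iio.preimage W.X.cont) ((isOpen_Ioi (a := -T - 3)).preimage W.X.cont)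
      (fun x => (lt_or_ge (W.X.τ x) (T - 3)).imp id fun h => lt_of_lt_of_le (by linarith) h) ?_
    rw [← preimage_inter, Iio_inter_Ioi, ← k.image_preimage subset_rfl]
    refine IsPreconnected.image ?_ _ (k.src ▸ k.φ.contMDiffOn.continuousOn)
    exact (show (univ ×ˢ Ioo (-T - 3) (T - 3) : Set (Y × ℝ)) = Prod.snd ⁻¹' _ from univ_prod) ▸
      isPreconnected_univ.prod isPreconnected_Ioo
  · obtain ⟨a, a1, a2⟩ := ex b hb
    refine ⟨a, a1.mono (subset_univ _), fun p hp => ?_⟩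
    exact (Bb31.pm_shift S.oe (- -3) (fun _ => rfl) (a2 _ (abs_lt.2
      ⟨by linarith [(s hp).1], by linarith [(s hp).2]⟩))).trans (congrFun (Sym24.pm_fst b) p).symm

end Crest.Agent.X212.Nk6
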